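import Mathlib
import Vale.Agent.P157.Defs
import Vale.Agent.P157.AnnealedRegion
import Vale.Agent.P157.AnnealedThreshold
import Vale.Agent.P157.Phase.Adapt
import Vale.Agent.P157.Phase.BaseMain
import Vale.Agent.P157.Phase.Final

open MeasureTheory ProbabilityTheory Filter
open scoped Topology

namespace Vale.Agent.Results.P157.AnnealedRegion

open Vale.Agent.P157 Vale.Agent.P157.Phase

/-- The exact set of densities and weights at which the limit is the annealed value. -/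
theorem result :
    ∀ (f : ℝ → ℝ) (K : ℝ), Measurable f → (∀ z, |f z| ≤ K) →
      (∀ α : ℝ, 0 < α →
        ((Tendsto (meanPressure isingLaw α f) atTop
              (𝓝 (α * Real.log (∫ x, Real.exp (f x) ∂gaussianReal 0 1))) ↔
            ∀ q ∈ Set.Ico (0 : ℝ) 1, ∀ ε > 0, ∃ r ≥ (0 : ℝ),
              α * (∫ z, (∫ ξ, Real.exp (f (Real.sqrt q * z + Real.sqrt (1 - q) * ξ)) ∂gaussianReal 0 1) /
                  (∫ x, Real.exp (f x) ∂gaussianReal 0 1) *
                Real.log ((∫ ξ, Real.exp (f (Real.sqrt q * z + Real.sqrt (1 - q) * ξ)) ∂gaussianReal 0 1) /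
                  ∫ x, Real.exp (f x) ∂gaussianReal 0 1) ∂gaussianReal 0 1) ≤
              r * (1 + q) / 2 -
                (∫ z, Real.log (Real.cosh (Real.sqrt r * z + r)) ∂gaussianReal 0 1) + ε) ∧
          (¬ Tendsto (meanPressure isingLaw α f) atTop
              (𝓝 (α * Real.log (∫ x, Real.exp (f x) ∂gaussianReal 0 1))) →
            ∃ δ > 0, ∀ᶠ N : ℕ in atTop, meanPressure isingLaw α f N ≤
              α * Real.log (∫ x, Real.exp (f x) ∂gaussianReal 0 1) - δ)) ∧
        ((Tendsto (meanPressure sphereLaw α f) atTop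
              (𝓝 (α * Real.log (∫ x, Real.exp (f x) ∂gaussianReal 0 1))) ↔
            ∀ q ∈ Set.Ico (0 : ℝ) 1,
              α * (∫ z, (∫ ξ, Real.exp (f (Real.sqrt q * z + Real.sqrt (1 - q) * ξ)) ∂gaussianReal 0 1) /
                  (∫ x, Real.exp (f x) ∂gaussianReal 0 1) *
                Real.log ((∫ ξ, Real.exp (f (Real.sqrt q * z + Real.sqrt (1 - q) * ξ)) ∂gaussianReal 0 1) /
                  ∫ x, Real.exp (f x) ∂gaussianReal 0 1) ∂gaussianReal 0 1) ≤
              -(q + Real.log (1 - q)) / 2) ∧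
          (¬ Tendsto (meanPressure sphereLaw α f) atTop
              (𝓝 (α * Real.log (∫ x, Real.exp (f x) ∂gaussianReal 0 1))) →
            ∃ δ > 0, ∀ᶠ N : ℕ in atTop, meanPressure sphereLaw α f N ≤
              α * Real.log (∫ x, Real.exp (f x) ∂gaussianReal 0 1) - δ))) ∧
      (∀ α : ℝ, 0 < α →
        (∫ z, z * Real.exp (f z) ∂gaussianReal 0 1 ≠ 0 ∨
          1 < α * ((∫ z, (z ^ 2 - 1) * Real.exp (f z) ∂gaussianReal 0 1) /
            ∫ z, Real.exp (f z) ∂gaussianReal 0 1) ^ 2) →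
        ∃ δ > (0 : ℝ), ∀ᶠ N : ℕ in atTop,
          meanPressure isingLaw α f N ≤ α * Real.log (∫ z, Real.exp (f z) ∂gaussianReal 0 1) - δ ∧
          meanPressure sphereLaw α f N ≤ α * Real.log (∫ z, Real.exp (f z) ∂gaussianReal 0 1) - δ) ∧
      (∫ z, z * Real.exp (f z) ∂gaussianReal 0 1 = 0 →
        (¬ ∃ c, f =ᵐ[gaussianReal 0 1] fun _ => c) →
        (∃ αc > (0 : ℝ),
          αc * ((∫ z, (z ^ 2 - 1) * Real.exp (f z) ∂gaussianReal 0 1) /
            ∫ z, Real.exp (f z) ∂gaussianReal 0 1) ^ 2 ≤ 1 ∧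
          ∀ α : ℝ, 0 < α → (Tendsto (meanPressure isingLaw α f) atTop
            (𝓝 (α * Real.log (∫ z, Real.exp (f z) ∂gaussianReal 0 1))) ↔ α ≤ αc)) ∧
        ∃ αc > (0 : ℝ),
          αc * ((∫ z, (z ^ 2 - 1) * Real.exp (f z) ∂gaussianReal 0 1) /
            ∫ z, Real.exp (f z) ∂gaussianReal 0 1) ^ 2 ≤ 1 ∧
          ∀ α : ℝ, 0 < α → (Tendsto (meanPressure sphereLaw α f) atTop
            (𝓝 (α * Real.log (∫ z, Real.exp (f z) ∂gaussianReal 0 1))) ↔ α ≤ αc)) ∧
      (∀ α : ℝ, 0 < α →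
        ((∀ r ∈ Set.Icc (-1 : ℝ) 1,
            Real.log ((∫ g : Fin 2 → ℝ, Real.exp (f (g 0)) *
                Real.exp (f (r * g 0 + Real.sqrt (1 - r ^ 2) * g 1))
                  ∂Measure.pi (fun _ => gaussianReal 0 1)) /
              (∫ z, Real.exp (f z) ∂gaussianReal 0 1) ^ 2) ≤
            ((∫ z, (z ^ 2 - 1) * Real.exp (f z) ∂gaussianReal 0 1) /
                ∫ z, Real.exp (f z) ∂gaussianReal 0 1) ^ 2 *
              (((1 + r) * Real.log (1 + r) + (1 - r) * Real.log (1 - r)) / 2)) →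
          (Tendsto (meanPressure isingLaw α f) atTop
              (𝓝 (α * Real.log (∫ z, Real.exp (f z) ∂gaussianReal 0 1))) ↔
            α * ((∫ z, (z ^ 2 - 1) * Real.exp (f z) ∂gaussianReal 0 1) /
              ∫ z, Real.exp (f z) ∂gaussianReal 0 1) ^ 2 ≤ 1)) ∧
        ((∀ r ∈ Set.Ioo (-1 : ℝ) 1,
            Real.log ((∫ g : Fin 2 → ℝ, Real.exp (f (g 0)) *
                Real.exp (f (r * g 0 + Real.sqrt (1 - r ^ 2) * g 1))
                  ∂Measure.pi (fun _ => gaussianReal 0 1)) /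
              (∫ z, Real.exp (f z) ∂gaussianReal 0 1) ^ 2) ≤
            ((∫ z, (z ^ 2 - 1) * Real.exp (f z) ∂gaussianReal 0 1) /
                ∫ z, Real.exp (f z) ∂gaussianReal 0 1) ^ 2 * (-Real.log (1 - r ^ 2) / 2)) →
          (Tendsto (meanPressure sphereLaw α f) atTop
              (𝓝 (α * Real.log (∫ z, Real.exp (f z) ∂gaussianReal 0 1))) ↔
            α * ((∫ z, (z ^ 2 - 1) * Real.exp (f z) ∂gaussianReal 0 1) /
              ∫ z, Real.exp (f z) ∂gaussianReal 0 1) ^ 2 ≤ 1))) :=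
  fun _ _ hf hb => ⟨fun _ hα => phase_iff adapt_stmt base_cube base_sphere hf hb hα,
    fun α hα h => h.elim (fun hμ => (annealed_region hf hb).1 hμ α hα)
      (fun hc => gap_above_curv hf hb hα hc),
    fun hμ hnc => annealed_region_bounded hf hb hμ hnc,
    fun _ hα => annealed_iff_curv hf hb hα⟩

end Vale.Agent.Results.P157.AnnealedRegion
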