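import Mathlib
import Vale.Agent.P157.Defs
import Vale.Agent.P157.Parisi.Defs
import Vale.Agent.P157.Full.Defs
import Vale.Agent.P157.Full.MinMaxDefs
import Vale.Agent.P157.Full.Sphere.Defs
import Vale.Agent.P157.Full.MinMax
import Vale.Agent.P157.Full.Sphere.Final

open MeasureTheory ProbabilityTheory Filter
open scoped Topology

namespace Vale.Agent.Results.P157.FullFormula

open Vale.Agent.P157 Vale.Agent.P157.Parisi.Full
open Vale.Agent.P157.Parisi.Full.Spherical (sphereValues)

/-- For every bounded Borel potential and every density the pressure converges to the variational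
formula, on the cube and on the sphere. -/
theorem result (α : ℝ) (f : ℝ → ℝ) (hα : 0 < α) (hf : Measurable f)
    (hb : ∃ A : ℝ, ∀ z, |f z| ≤ A) :
    ((minMaxValues α f).Nonempty ∧ BddBelow (minMaxValues α f) ∧
      Tendsto (meanPressure isingLaw α f) atTop (𝓝 (sInf (minMaxValues α f)))) ∧
    ((sphereValues α f).Nonempty ∧ BddBelow (sphereValues α f) ∧
      Tendsto (meanPressure sphereLaw α f) atTop (𝓝 (sInf (sphereValues α f)))) := by
  obtain ⟨h1, -, -, h4⟩ := cube_formula hα hf hb.choose_spec
  exact ⟨⟨minMaxValues_nonempty α f, h1, h4⟩, Spherical.sphereValues_nonempty α f,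
    Spherical.sphere_formula α f hα hf hb⟩

end Vale.Agent.Results.P157.FullFormula
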