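import Mathlib
import Vale.Agent.P157.Defs
import Vale.Agent.P157.Annealed
import Vale.Agent.P157.CosFamily
import Vale.Agent.P157.SmoothThreshold

open MeasureTheory ProbabilityTheory Filter
open scoped Topology

namespace Vale.Agent.Results.P157.PhaseTransition

open Vale.Agent.P157

/-- The annealed formula under a second-moment condition, and an exact transition in closed form. -/
theorem result :
    (∀ (f : ℝ → ℝ) (K α : ℝ), Measurable f → (∀ z, |f z| ≤ K) → 0 < α →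
      ((∀ r ∈ Set.Icc (-1 : ℝ) 1,
          α * Real.log ((∫ g : Fin 2 → ℝ, Real.exp (f (g 0)) *
              Real.exp (f (r * g 0 + Real.sqrt (1 - r ^ 2) * g 1))
                ∂Measure.pi (fun _ => gaussianReal 0 1)) /
            (∫ z, Real.exp (f z) ∂gaussianReal 0 1) ^ 2) ≤
          ((1 + r) * Real.log (1 + r) + (1 - r) * Real.log (1 - r)) / 2) →
        Tendsto (meanPressure isingLaw α f) atTop
          (𝓝 (α * Real.log (∫ z, Real.exp (f z) ∂gaussianReal 0 1)))) ∧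
      ((∀ r ∈ Set.Ioo (-1 : ℝ) 1,
          α * Real.log ((∫ g : Fin 2 → ℝ, Real.exp (f (g 0)) *
              Real.exp (f (r * g 0 + Real.sqrt (1 - r ^ 2) * g 1))
                ∂Measure.pi (fun _ => gaussianReal 0 1)) /
            (∫ z, Real.exp (f z) ∂gaussianReal 0 1) ^ 2) ≤
          -Real.log (1 - r ^ 2) / 2) →
        Tendsto (meanPressure sphereLaw α f) atTop
          (𝓝 (α * Real.log (∫ z, Real.exp (f z) ∂gaussianReal 0 1))))) ∧
    (∀ (ν : Measure ℝ) [IsFiniteMeasure ν], ν.real Set.univ < 1 → ∀ c α : ℝ, 0 < α →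
      ((∀ᵐ t ∂ν, t ^ 4 ≤ 2) →
        ∃ L, Tendsto (meanPressure isingLaw α fun z => c + Real.log (1 - ∫ t, Real.cos (t * z) ∂ν))
            atTop (𝓝 L) ∧
          L ≤ α * (c + Real.log (1 - ∫ t, Real.exp (-t ^ 2 / 2) ∂ν)) ∧
          (L = α * (c + Real.log (1 - ∫ t, Real.exp (-t ^ 2 / 2) ∂ν)) ↔
            α * (∫ t, t ^ 2 * Real.exp (-t ^ 2 / 2) ∂ν) ^ 2 ≤
              (1 - ∫ t, Real.exp (-t ^ 2 / 2) ∂ν) ^ 2)) ∧
      ((∀ᵐ t ∂ν, t ^ 4 ≤ 6) →
        ∃ L, Tendsto (meanPressure sphereLaw α fun z => c + Real.log (1 - ∫ t, Real.cos (t * z) ∂ν))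
            atTop (𝓝 L) ∧
          L ≤ α * (c + Real.log (1 - ∫ t, Real.exp (-t ^ 2 / 2) ∂ν)) ∧
          (L = α * (c + Real.log (1 - ∫ t, Real.exp (-t ^ 2 / 2) ∂ν)) ↔
            α * (∫ t, t ^ 2 * Real.exp (-t ^ 2 / 2) ∂ν) ^ 2 ≤
              (1 - ∫ t, Real.exp (-t ^ 2 / 2) ∂ν) ^ 2))) ∧
    (∀ φ : ℝ → ℝ, ContDiff ℝ 4 φ → (∃ A, ∀ j ≤ 4, ∀ x, |iteratedDeriv j φ x| ≤ A) →
      (∀ z, φ (-z) = φ z) →
      (∫ z, iteratedDeriv 3 φ z ^ 2 ∂gaussianReal 0 1 <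
          2 * (∫ z, iteratedDeriv 2 φ z ∂gaussianReal 0 1) ^ 2 →
        ∃ β₀ > (0 : ℝ), ∀ β : ℝ, |β| ≤ β₀ → ∀ α : ℝ, 0 < α →
          ∃ L, Tendsto (meanPressure isingLaw α fun z => β * φ z) atTop (𝓝 L) ∧
            L ≤ α * Real.log (∫ z, Real.exp (β * φ z) ∂gaussianReal 0 1) ∧
            (L = α * Real.log (∫ z, Real.exp (β * φ z) ∂gaussianReal 0 1) ↔
              α * ((∫ z, (z ^ 2 - 1) * Real.exp (β * φ z) ∂gaussianReal 0 1) /
                ∫ z, Real.exp (β * φ z) ∂gaussianReal 0 1) ^ 2 ≤ 1)) ∧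
      (∫ z, iteratedDeriv 3 φ z ^ 2 ∂gaussianReal 0 1 <
          6 * (∫ z, iteratedDeriv 2 φ z ∂gaussianReal 0 1) ^ 2 →
        ∃ β₀ > (0 : ℝ), ∀ β : ℝ, |β| ≤ β₀ → ∀ α : ℝ, 0 < α →
          ∃ L, Tendsto (meanPressure sphereLaw α fun z => β * φ z) atTop (𝓝 L) ∧
            L ≤ α * Real.log (∫ z, Real.exp (β * φ z) ∂gaussianReal 0 1) ∧
            (L = α * Real.log (∫ z, Real.exp (β * φ z) ∂gaussianReal 0 1) ↔
              α * ((∫ z, (z ^ 2 - 1) * Real.exp (β * φ z) ∂gaussianReal 0 1) /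
                ∫ z, Real.exp (β * φ z) ∂gaussianReal 0 1) ^ 2 ≤ 1))) :=
  ⟨fun _ _ _ hf hb hα => ⟨fun h => tendsto_annealed_ising hf hb hα h,
      fun h => tendsto_annealed_sphere hf hb hα h⟩,
    fun _ _ hν c _ hα => ⟨fun hs => sharp_cosFamily_ising hν hs c hα,
      fun hs => sharp_cosFamily_sphere hν hs c hα⟩,
    fun _ hφ hb hev => smallBeta_threshold hφ hb hev⟩

end Vale.Agent.Results.P157.PhaseTransition
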